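import Vale.Agent.P144L.H.Har
import Vale.Agent.P144E.An1.Hol

/-!
The boundary Harnack principle.
-/

set_option linter.all false

namespace Vale.Agent.P144L.H

open Finset Vale.Agent.P144Z

variable {out : ℤ × ℤ → Prop} {ν : ℂ} {y : ℤ × ℤ}

theorem up (hν : ‖ν‖ = 1) {d : ℕ} (hd : 1 ≤ d) :
    ∃ c : ℤ × ℤ, zd c 0 ≤ 7 * d ∧ ∀ u, zd u 0 ≤ d → Cn ν (c + u) := by
  have n1 : ν.re ^ 2 + ν.im ^ 2 = 1 := by
    rw [sq, sq, ← Complex.normSq_apply, Complex.normSq_eq_norm_sq, hν, one_pow]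
  have d1 : (1 : ℝ) ≤ d := by exact_mod_cast hd
  have r1 := abs_le.1 (abs_sub_round (6 * d * ν.re))
  have r2 := abs_le.1 (abs_sub_round (6 * d * ν.im))
  have s1 : -1 ≤ ν.re ∧ ν.re ≤ 1 := abs_le.1 ((Complex.abs_re_le_norm ν).trans hν.le)
  have s2 : -1 ≤ ν.im ∧ ν.im ≤ 1 := abs_le.1 ((Complex.abs_im_le_norm ν).trans hν.le)
  refine ⟨(round (6 * d * ν.re), round (6 * d * ν.im)), IN1.zd_le_of ?_ ?_, fun u hu => ?_⟩
  · simp only [Prod.fst_zero, Int.cast_zero, sub_zero, abs_lt]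
    push_cast
    constructor <;> nlinarith [r1.1, r1.2, s1.1, s1.2]
  · simp only [Prod.snd_zero, Int.cast_zero, sub_zero, abs_lt]
    push_cast
    constructor <;> nlinarith [r2.1, r2.2, s2.1, s2.2]
  obtain ⟨u1, u2⟩ := IN1.abs_le_of hu
  simp only [Prod.fst_zero, Prod.snd_zero, Int.cast_zero, sub_zero, abs_le] at u1 u2
  simp only [Cn, len, ht, Prod.fst_add, Prod.snd_add, Int.cast_add]
  obtain ⟨a, ha⟩ : ∃ a, (round (6 * d * ν.re) : ℝ) + u.1 = 6 * d * ν.re + a := ⟨_, (add_sub_cancel _ _).symm⟩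
  obtain ⟨b, hb⟩ : ∃ b, (round (6 * d * ν.im) : ℝ) + u.2 = 6 * d * ν.im + b := ⟨_, (add_sub_cancel _ _).symm⟩
  have a1 : a ^ 2 ≤ (3 / 2 * d) ^ 2 := sq_le_sq' (by linarith [r1.2, u1.1]) (by linarith [r1.1, u1.2])
  have b1 : b ^ 2 ≤ (3 / 2 * d) ^ 2 := sq_le_sq' (by linarith [r2.2, u2.1]) (by linarith [r2.1, u2.2])
  rw [ha, hb]
  obtain ⟨p, hp⟩ : ∃ p, p = a * ν.re + b * ν.im := ⟨_, rfl⟩
  have p1 : p ^ 2 ≤ (9 / 4 * d) ^ 2 := by
    have : p ^ 2 + (a * ν.im - b * ν.re) ^ 2 = a ^ 2 + b ^ 2 := by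
      rw [hp]
      linear_combination (a ^ 2 + b ^ 2) * n1
    nlinarith [sq_nonneg (a * ν.im - b * ν.re)]
  have p2 := (abs_le.1 (abs_le_of_sq_le_sq p1 (by positivity))).1
  have e1 : (6 * d * ν.re + a) * ν.re + (6 * d * ν.im + b) * ν.im = 6 * d + p := by
    rw [hp]
    linear_combination 6 * d * n1
  have e2 : (6 * d * ν.re + a) ^ 2 + (6 * d * ν.im + b) ^ 2 = 36 * d ^ 2 + 12 * d * p + (a ^ 2 + b ^ 2) := by
    rw [hp]
    linear_combination 36 * d ^ 2 * n1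
  rw [e1, e2]
  refine abs_le_of_sq_le_sq' ?_ (by linarith) |>.2
  rw [mul_pow, div_pow, Real.sq_sqrt (by norm_num), Real.sq_sqrt (by rw [← e2]; positivity)]
  nlinarith [sq_nonneg p]

theorem deep (h : Ou out ν) {d : ℕ} (hd : 1 ≤ d) {x : ℤ × ℤ} (hx : ¬ out x) :
    ∃ x', zd x' x ≤ 7 * d ∧ In out d x' := by
  obtain ⟨c, c1, c2⟩ := up h.nrm hd
  refine ⟨x + c, by rwa [zd_shift], fun v hv k => hx (h.up x (c + (v - (x + c))) (c2 _ ?_) ?_)⟩
  · simpa [zd] using hv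
  · rwa [show x + (c + (v - (x + c))) = v by abel]

theorem thick (h : Ou out ν) {d : ℕ} (hd : 1 ≤ d) {x : ℤ × ℤ} (hx : out x) :
    ∃ x', zd x' x ≤ 7 * d ∧ ∀ v, zd v x' ≤ d → out v := by
  obtain ⟨c, c1, c2⟩ := up h.nrm hd
  refine ⟨x - c, by simpa [zd] using c1, fun v hv => h.up v (c + (x - c - v)) (c2 _ ?_) ?_⟩
  · rw [GeoA.zd_comm] at hv
    simpa [zd] using hv
  · rwa [show v + (c + (x - c - v)) = x by abel]

theorem har_mono {ρ ρ' : ℕ} {h : ℤ × ℤ → ℝ} (H : Har out y ρ h) (e : ρ' ≤ ρ) : Har out y ρ' h :=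
  ⟨fun x hx => H.zero x (hx.trans e), fun x hx => H.harm x (hx.trans e)⟩

theorem har_lin {ρ : ℕ} {f g : ℤ × ℤ → ℝ} (F : Har out y ρ f) (G : Har out y ρ g) (a b : ℝ) :
    Har out y ρ fun v => a * f v + b * g v :=
  ⟨fun x hx ho => by rw [F.zero x hx ho, G.zero x hx ho]; ring, fun x hx ho => by
    have h1 := F.harm x hx ho
    have h2 := G.harm x hx ho
    simp only [Fin.sum_univ_four] at h1 h2 ⊢
    linear_combination a * h1 + b * h2⟩

/-- Decay in a thin strip along the boundary. -/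
theorem strip (h : Ou out ν) {d R : ℕ} (hd : 2 ≤ d) {g : ℤ × ℤ → ℝ} {t : ℝ} (ht : 0 ≤ t)
    (H : Har out y R g) (h1 : ∀ v, zd v y ≤ R → -t ≤ g v)
    (h2 : ∀ v, zd v y ≤ R → In out d v → 0 ≤ g v) (i : ℕ) :
    ∀ v, zd v y + 26 * d * i ≤ R → -(An1.th 8 ^ i * t) ≤ g v := by
  induction i with
  | zero => simpa using h1
  | succ i ih =>
    intro v hv
    have t0 : 0 ≤ An1.th 8 ^ i * t := mul_nonneg (pow_nonneg (An1.th_pos 8).le _) ht
    by_cases hin : In out d v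
    · refine le_trans ?_ (h2 v (by omega) hin)
      exact neg_nonpos.2 (mul_nonneg (pow_nonneg (An1.th_pos 8).le _) ht)
    obtain ⟨o, o1, o2⟩ : ∃ o, zd o v ≤ d ∧ out o := by
      by_contra k
      exact hin fun o o1 o2 => k ⟨o, o1, o2⟩
    obtain ⟨x, x1, x2⟩ := thick h (show 1 ≤ d by omega) o2
    have tr : ∀ u, zd (v + u) y ≤ zd u 0 + zd v y := fun u => by
      have := GeoA.zd_tri (v + u) v y
      rwa [zd_shift] at this
    rw [mul_add, mul_one] at hv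
    have k := An1.step (N := 8) (ρ := 26 * d) (σ := d) (g := fun u => -g (v + u))
      (S := An1.th 8 ^ i * t) (fun u hu hp => by
        have a := tr u
        have ho : ¬ out (v + u) := fun ho => by
          have := H.zero _ (by omega) ho
          simp [this] at hp
        have b := H.harm (v + u) (by omega) ho
        refine ⟨fun a => -g (v + (u + st4 a)) - -g (v + u), ?_, fun a => Or.inl le_rfl⟩
        simp only [Fin.sum_univ_four, ← add_assoc] at b ⊢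
        linarith) hd le_rfl t0 (x := x - v) (by
        have := GeoA.zd_tri x o v
        rw [show zd (x - v) 0 = zd x v by simp [zd]]
        omega) (fun u hu hu' => by
        have a := tr u
        have e : zd (v + u) x = zd u (x - v) := by
          simp only [zd, Prod.fst_add, Prod.snd_add, Prod.fst_sub, Prod.snd_sub]
          congr 2 <;> ring
        rw [H.zero _ (by omega) (x2 _ (by omega)), neg_zero]) (fun u hu => by
        have a := tr u
        exact neg_le.1 (ih _ (by omega))) 0 (by simp [zd])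
    simp only [add_zero] at k
    rw [pow_succ', mul_assoc]
    linarith

/-- Nonnegative and harmonic at the inner sites. -/
def Nh (out : ℤ × ℤ → Prop) (y : ℤ × ℤ) (ρ : ℕ) (f : ℤ × ℤ → ℝ) : Prop :=
  ∀ v, zd v y ≤ ρ → ¬ out v → 0 ≤ f v ∧ Hm f v

theorem chain (hC : ChnL) : ∃ Q : ℕ, 1 ≤ Q ∧ ∀ n : ℕ, 1 ≤ n → ∃ C : ℝ, 1 ≤ C ∧ ∀ out ν, Ou out ν →
    ∀ (y x x' : ℤ × ℤ) (d : ℕ) (f : ℤ × ℤ → ℝ), 100 ≤ d → zd x y ≤ n * d → zd x' y ≤ n * d →
    In out d x → In out d x' → Nh out y (Q * (n * d)) f → f x ≤ C * f x' := by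
  obtain ⟨Q, hQ, hC⟩ := hC
  obtain ⟨C, C1, hH⟩ := harn0
  refine ⟨Q + 1, by omega, fun n hn => ?_⟩
  obtain ⟨c, c0, hC⟩ := hC n hn
  refine ⟨C / c + 1, le_add_of_nonneg_left (by positivity),
    fun out ν ho y x x' d f hd hx hx' i1 i2 hf => ?_⟩
  have e1 : n * d ≤ Q * (n * d) := Nat.le_mul_of_pos_left _ hQ
  have e2 : d ≤ n * d := Nat.le_mul_of_pos_left _ hn
  rw [add_mul, one_mul] at hf
  have x0 := (hf x (by omega) (i1 x (by simp [zd]))).1
  have x1 := (hf x' (by omega) (i2 x' (by simp [zd]))).1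
  have k := hC out ν ho y x x' d f (f x / C) hd (by positivity) hx hx' i1 i2
    (fun v hv o => ⟨(hf v (by omega) o).1, (hf v (by omega) o).2.supH⟩) fun v hv => by
      rw [div_le_iff₀' (by linarith)]
      refine hH (d / 10) f v (by omega) (fun u hu => ?_) x (by rw [GeoA.zd_comm]; omega)
      have a := GeoA.zd_tri u v x
      have b := GeoA.zd_tri u x y
      exact hf u (by omega) (i1 u (by omega))
  rw [← mul_div_assoc, div_le_iff₀ (by linarith), ← le_div_iff₀' c0] at k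
  rw [add_mul, div_mul_eq_mul_div, mul_comm C]
  linarith

theorem low (hC : ChnL) : ∃ (P : ℕ) (C₁ C₂ : ℝ), 1 ≤ C₁ ∧ 1 ≤ C₂ ∧ ∀ out ν, Ou out ν →
    ∀ (y x T : ℤ × ℤ) (d j : ℕ) (f : ℤ × ℤ → ℝ), 100 ≤ d → zd x y ≤ 2 * (2 ^ j * d) →
    In out d x → zd T y ≤ 8 * (2 ^ j * d) → In out (2 ^ j * d) T →
    Nh out y (P * (2 ^ j * d)) f → f T ≤ C₂ * C₁ ^ j * f x := by
  obtain ⟨Q, hQ, hC⟩ := chain hC
  obtain ⟨C₁, c1, h1⟩ := hC 14 (by omega)
  obtain ⟨C₂, c2, h2⟩ := hC 16 (by omega)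
  refine ⟨16 * Q + 16, C₁, C₂, c1, c2, fun out ν ho y x T d j f hd hx i1 hT i2 hf => ?_⟩
  have key : ∀ i ≤ j, ∃ x', zd x' x + 14 * d ≤ 14 * (2 ^ i * d) ∧ In out (2 ^ i * d) x' ∧
      f x' ≤ C₁ ^ i * f x := by
    intro i
    induction i with
    | zero => exact fun _ => ⟨x, by simp [zd], by simpa using i1, by simp⟩
    | succ i ih =>
      intro hi
      obtain ⟨z, z1, z2, z3⟩ := ih (by omega)
      have a1 : d ≤ 2 ^ i * d := Nat.le_mul_of_pos_left _ (by positivity)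
      have a2 : 2 ^ i * d ≤ 2 ^ j * d := Nat.mul_le_mul_right _ (Nat.pow_le_pow_right two_pos (by omega))
      have a3 : Q * (14 * (2 ^ i * d)) ≤ 16 * Q * (2 ^ j * d) := by
        rw [mul_comm 16, mul_assoc]
        exact Nat.mul_le_mul_left _ (by omega)
      rw [pow_succ, mul_right_comm]
      generalize 2 ^ i * d = e at z1 z2 a1 a2 a3
      obtain ⟨w, w1, w2⟩ := deep ho (d := e * 2) (by omega) (z2 z (by simp [zd]))
      have t1 := GeoA.zd_tri w z x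
      refine ⟨w, by omega, w2, ?_⟩
      have k := h1 out ν ho z w z e f (by omega) (by omega) (by simp [zd])
        (fun v hv => w2 v (by omega)) z2 fun v hv => hf v (by
          have t2 := GeoA.zd_tri v z x
          have t3 := GeoA.zd_tri v x y
          rw [add_mul]
          omega)
      rw [pow_succ', mul_assoc]
      exact k.trans (mul_le_mul_of_nonneg_left z3 (by linarith))
  obtain ⟨z, z1, z2, z3⟩ := key j le_rfl
  have a1 : d ≤ 2 ^ j * d := Nat.le_mul_of_pos_left _ (by positivity)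
  generalize 2 ^ j * d = D at *
  have t1 := GeoA.zd_tri z x y
  have k := h2 out ν ho y T z D f (by omega) (by omega) (by omega) i2 z2 fun v hv => hf v (by
    rw [add_mul, mul_comm 16 Q, mul_assoc]
    omega)
  rw [mul_assoc]
  exact k.trans (mul_le_mul_of_nonneg_left z3 (by linarith))

theorem num {θ C ε : ℝ} (h0 : 0 < θ) (h1 : θ < 1) (hC : 1 ≤ C) (hε : 0 < ε) :
    ∃ j : ℕ, 26 * (j * j) ≤ 2 ^ j ∧ θ ^ (j * j) * C ^ j ≤ ε := by
  obtain ⟨n, hn⟩ := exists_pow_lt_of_lt_one (show 0 < min ε 1 / C by positivity) h1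
  refine ⟨n + 13, ?_, ?_⟩
  · clear hn
    induction n with
    | zero => norm_num
    | succ n ih =>
      rw [show n + 1 + 13 = n + 13 + 1 by ring, pow_succ]
      generalize 2 ^ (n + 13) = t at ih
      nlinarith [Nat.zero_le (n * n), Nat.zero_le n]
  · have a : θ ^ (n + 13) * C ≤ min ε 1 := by
      rw [← le_div_iff₀ (by linarith)]
      exact (pow_le_pow_of_le_one h0.le h1.le (by omega)).trans hn.le
    rw [pow_mul, ← mul_pow]
    exact (pow_le_of_le_one (by positivity) (a.trans (min_le_right _ _)) (by omega)).trans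
      (a.trans (min_le_left _ _))

/-- One step of the iteration. -/
theorem step (hC : ChnL) (hD : DblL) : ∃ (P j : ℕ) (γ θ : ℝ), 16 ≤ P ∧ 0 < γ ∧ γ < 1 ∧ 0 ≤ θ ∧
    θ ≤ 1 ∧ ∀ out ν, Ou out ν → ∀ (y T T' : ℤ × ℤ) (d : ℕ) (ω q : ℤ × ℤ → ℝ) (Δ : ℝ), 100 ≤ d →
    Bp out y → Pos out ν y (P * (2 ^ j * (P * d))) ω → Har out y (P * (2 ^ j * (P * d))) q →
    0 ≤ Δ → zd T y ≤ 8 * (2 ^ j * (P * d)) → In out (2 ^ j * (P * d)) T →
    zd T' y ≤ 8 * (2 ^ j * d) → In out (2 ^ j * d) T' →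
    (∀ v, zd v y ≤ P * (2 ^ j * (P * d)) → |q v| ≤ Δ * ω v + θ * Δ * ω T) →
    ∃ μ : ℝ, ∀ v, zd v y ≤ P * (2 ^ j * d) →
      |q v - μ * ω v| ≤ (1 - γ) * Δ * ω v + θ * ((1 - γ) * Δ) * ω T' := by
  obtain ⟨P₀, C₁, C₂, c1, c2, hL⟩ := low hC
  obtain ⟨Q, hQ, hD⟩ := hD
  obtain ⟨P, p1, p2, p3⟩ : ∃ P, 16 ≤ P ∧ P₀ + 1 ≤ P ∧ Q * 8 ≤ P := ⟨16 + P₀ + Q * 8, by omega⟩
  obtain ⟨c₃, c3, h3⟩ := hD 8 (by omega)
  obtain ⟨c₄, c4, h4⟩ := hD (8 * P) (by omega)
  obtain ⟨C₃, k3, k3'⟩ : ∃ C₃ : ℝ, 1 ≤ C₃ ∧ 1 ≤ C₃ * c₃ :=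
    ⟨1 / c₃ + 1, le_add_of_nonneg_left (by positivity), by
      rw [add_mul, one_div_mul_cancel c3.ne']; linarith⟩
  obtain ⟨j, j1, j2⟩ := num (An1.th_pos 8) (An1.th_lt 8) c1
    (show 0 < c₄ / (8 * C₃ * C₂) by positivity)
  obtain ⟨G, hG⟩ : ∃ G, G = C₂ * C₁ ^ j := ⟨_, rfl⟩
  have G1 : 1 ≤ G := hG ▸ one_le_mul_of_one_le_of_one_le c2 (one_le_pow₀ c1)
  have τ0 := pow_pos (An1.th_pos 8) (j * j)
  obtain ⟨γ, γ0, γ1⟩ : ∃ γ : ℝ, 0 < γ ∧ γ * (4 * C₃ * G) = 1 :=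
    ⟨1 / (4 * C₃ * G), by positivity, one_div_mul_cancel (by positivity)⟩
  obtain ⟨θ, θ0, θ1⟩ : ∃ θ : ℝ, 0 < θ ∧ θ * G = γ :=
    ⟨γ / G, by positivity, div_mul_cancel₀ _ (by positivity)⟩
  have γ2 : γ ≤ 1 / 4 := by nlinarith [one_le_mul_of_one_le_of_one_le k3 G1]
  have θ2 : θ ≤ γ := by nlinarith
  have γ3 : θ ≤ 4 * γ * C₃ - 3 * γ * C₃ := by nlinarith
  have τ1 : An1.th 8 ^ (j * j) * (4 * γ * C₃) ≤ θ * (1 - γ) * c₄ := by
    rw [le_div_iff₀ (by positivity)] at j2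
    have a : An1.th 8 ^ (j * j) * (8 * C₃ * G) ≤ c₄ := by rw [hG]; linarith
    have b := mul_le_mul_of_nonneg_left a θ0.le
    have c : θ * (An1.th 8 ^ (j * j) * (8 * C₃ * G)) = 2 * (An1.th 8 ^ (j * j) * (4 * γ * C₃)) := by
      rw [← θ1]; ring
    nlinarith [mul_pos θ0 c4]
  refine ⟨P, j, γ, θ, p1, γ0, by linarith, θ0.le, by linarith,
    fun out ν ho y T T' d ω q Δ hd hy hω hq hΔ t1 t2 t3 t4 hb => ?_⟩
  have a1 : d ≤ P * d := Nat.le_mul_of_pos_left _ (by omega)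
  have a2 : d ≤ 2 ^ j * d := Nat.le_mul_of_pos_left _ (by positivity)
  have a3 : P * d ≤ 2 ^ j * (P * d) := Nat.le_mul_of_pos_left _ (by positivity)
  have a4 : P * (2 ^ j * d) = 2 ^ j * (P * d) := by ring
  have a5 : 26 * (P * d) * (j * j) ≤ 2 ^ j * (P * d) :=
    (le_of_eq (by ring)).trans (Nat.mul_le_mul_right _ j1)
  have a6 : 2 ^ j * d ≤ P * (2 ^ j * d) := Nat.le_mul_of_pos_left _ (by omega)
  have w4 := h4 out ν ho y T T' (2 ^ j * d) _ ω (by omega) (by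
    rw [mul_assoc, a4, ← mul_assoc]
    exact Nat.mul_le_mul_right _ p3) hω hy (by rw [mul_assoc]; omega) (by rw [mul_assoc]; omega) t4
  replace hL := fun x f => hL out ν ho y x T (P * d) j f (by omega)
  rw [← hG] at hL
  rw [a4]
  generalize 2 ^ j * (P * d) = D at *
  have b1 : 16 * D ≤ P * D := Nat.mul_le_mul_right _ p1
  have b2 : P₀ * D + D ≤ P * D := by
    rw [← add_one_mul]
    exact Nat.mul_le_mul_right _ p2
  have w3 : ∀ v, zd v y ≤ 2 * D → ω v ≤ C₃ * ω T := fun v hv => by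
    have := h3 out ν ho y v T D _ ω (by omega) (by
      rw [← mul_assoc]
      exact Nat.mul_le_mul_right _ p3) hω hy (by omega) t1 t2
    nlinarith [hω.nn v]
  have W0 := hω.nn T
  have key : ∀ q : ℤ × ℤ → ℝ, Har out y (P * D) q → 0 ≤ q T →
      (∀ v, zd v y ≤ P * D → |q v| ≤ Δ * ω v + θ * Δ * ω T) → ∀ v, zd v y ≤ D →
      |q v - 2 * γ * Δ * ω v| ≤ (1 - γ) * Δ * ω v + θ * ((1 - γ) * Δ) * ω T' := by
    intro q hq q0 hb v hv
    have s : ∀ g : ℤ × ℤ → ℝ, Har out y (P * D) g →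
        (∀ v, zd v y ≤ 2 * D → -(4 * γ * C₃ * (Δ * ω T)) ≤ g v) →
        (∀ v, zd v y ≤ 2 * D → In out (P * d) v → 0 ≤ g v) →
        -(θ * ((1 - γ) * Δ) * ω T') ≤ g v := fun g g1 g2 g3 => by
      refine le_trans (neg_le_neg ?_) (strip ho (by omega) (by positivity)
        (har_mono g1 (by omega)) g2 g3 (j * j) v (by omega))
      have e1 := mul_le_mul_of_nonneg_right τ1 (mul_nonneg hΔ W0)
      have e2 := mul_le_mul_of_nonneg_left w4
        (mul_nonneg θ0.le (mul_nonneg (show 0 ≤ 1 - γ by linarith) hΔ))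
      linarith
    have e0 := mul_le_mul_of_nonneg_right γ3 (mul_nonneg hΔ W0)
    have s1 := s _ (har_lin hq hω.har 1 ((1 - 3 * γ) * Δ)) (fun v hv => by
      have e1 := (abs_le.1 (hb v (by omega))).1
      have e2 := mul_le_mul_of_nonneg_left (w3 v hv) (show 0 ≤ 3 * γ * Δ by positivity)
      linarith) fun x hx hi => by
      have e1 := hL x (fun v => q v + Δ * ω v + θ * Δ * ω T) hx hi t1 t2 fun u hu o =>
        ⟨by linarith [(abs_le.1 (hb u (by omega))).1], by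
          have f1 := hq.harm u (by omega) o
          have f2 := hω.har.harm u (by omega) o
          simp only [Hm, Fin.sum_univ_four] at f1 f2 ⊢
          linear_combination f1 + Δ * f2⟩
      have e2 := mul_le_mul_of_nonneg_left (w3 x hx) (show 0 ≤ 3 * γ * Δ by positivity)
      have e3 : 0 ≤ θ * Δ * ω T := by positivity
      have e4 : 4 * γ * C₃ * (Δ * ω T) ≤ q x + Δ * ω x + θ * Δ * ω T := by
        refine le_of_mul_le_mul_left (le_trans ?_ e1) (by linarith)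
        have : G * (4 * γ * C₃ * (Δ * ω T)) = Δ * ω T := by linear_combination (Δ * ω T) * γ1
        linarith
      linarith
    have s2 := s _ (har_lin hq hω.har (-1) ((1 + γ) * Δ)) (fun v hv => by
      have e1 := (abs_le.1 (hb v (by omega))).2
      have e2 : 0 ≤ γ * Δ * ω v := mul_nonneg (by positivity) (hω.nn v)
      have e3 : 0 ≤ γ * C₃ * (Δ * ω T) := by positivity
      linarith) fun x hx hi => by
      have e1 := hL x ω hx hi t1 t2 fun u hu o => ⟨hω.nn u, hω.har.harm u (by omega) o⟩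
      have e2 := (abs_le.1 (hb x (by omega))).2
      have e3 := mul_le_mul_of_nonneg_left e1 (show 0 ≤ θ * Δ by positivity)
      have e4 : θ * Δ * (G * ω x) = γ * Δ * ω x := by rw [← θ1]; ring
      linarith
    rw [abs_le]
    constructor <;> linarith
  rcases le_total 0 (q T) with h | h
  · exact ⟨_, key q hq h hb⟩
  · refine ⟨-(2 * γ * Δ), fun v hv => ?_⟩
    have := key _ (har_lin hq hq (-1) 0) (by linarith) (fun v hv => by
      simpa using hb v hv) v hv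
    rwa [← abs_neg, show -(-1 * q v + 0 * q v - 2 * γ * Δ * ω v) = q v - -(2 * γ * Δ) * ω v by
      ring] at this

theorem bhpL (hC : ChnL) (hD : DblL) : BhpL := by
  obtain ⟨P, j, γ, θ, p1, γ0, γ1, θ0, θ1, H⟩ := step hC hD
  intro η hη
  obtain ⟨k, hk⟩ := exists_pow_lt_of_lt_one (half_pos hη) (show 1 - γ < 1 by linarith)
  refine ⟨P * P ^ k, 8 * 2 ^ j * 100, fun out ν ho y s ω h S W hs hy hω hh hS hb hW => ?_⟩
  have top : ∀ D, 100 ≤ D → ∃ T, zd T y ≤ 8 * D ∧ In out D T := fun D hD => by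
    obtain ⟨x, x1, x2⟩ := hy.2
    obtain ⟨T, t1, t2⟩ := deep ho (show 1 ≤ D by omega) x2
    have := GeoA.zd_tri T x y
    exact ⟨T, by omega, t2⟩
  have it : ∀ i d, 100 ≤ d → P * (2 ^ j * (P ^ i * d)) ≤ P * P ^ k * s → ∀ T,
      zd T y ≤ 8 * (2 ^ j * d) → In out (2 ^ j * d) T → ∃ μ : ℝ, ∀ v, zd v y ≤ P * (2 ^ j * d) →
      |h v - μ * ω v| ≤ (1 - γ) ^ i * S * ω v + θ * ((1 - γ) ^ i * S) * ω T := by
    intro i
    induction i with
    | zero =>
      refine fun d _ e T _ _ => ⟨0, fun v hv => ?_⟩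
      rw [pow_zero, one_mul] at e
      have := mul_nonneg (mul_nonneg θ0 hS) (hω.nn T)
      simp only [zero_mul, sub_zero, pow_zero, one_mul]
      linarith [hb v (hv.trans e)]
    | succ i ih =>
      intro d hd e T' t1 t2
      have a1 : d ≤ P * d := Nat.le_mul_of_pos_left _ (by omega)
      have a2 : P * d ≤ 2 ^ j * (P * d) := Nat.le_mul_of_pos_left _ (by positivity)
      rw [pow_succ, mul_assoc (P ^ i)] at e
      have a3 : P * (2 ^ j * (P * d)) ≤ P * P ^ k * s := le_trans (Nat.mul_le_mul_left _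
        (Nat.mul_le_mul_left _ (Nat.le_mul_of_pos_left _ (by positivity)))) e
      obtain ⟨T, t3, t4⟩ := top (2 ^ j * (P * d)) (by omega)
      obtain ⟨μ, hμ⟩ := ih (P * d) (by omega) e T t3 t4
      obtain ⟨μ', hμ'⟩ := H out ν ho y T T' d ω _ ((1 - γ) ^ i * S) hd hy
        ⟨har_mono hω.har a3, hω.nn, hω.mono⟩ (har_mono (har_lin hh hω.har 1 (-μ)) a3)
        (mul_nonneg (pow_nonneg (by linarith) _) hS) t3 t4 t1 t2 fun v hv => by
          simpa only [one_mul, neg_mul, ← sub_eq_add_neg] using hμ v hv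
      refine ⟨μ + μ', fun v hv => ?_⟩
      have := hμ' v hv
      rw [show 1 * h v + -μ * ω v - μ' * ω v = h v - (μ + μ') * ω v by ring] at this
      exact this.trans (le_of_eq (by ring))
  have q0 : 0 < 8 * 2 ^ j := by positivity
  have d1 := Nat.div_mul_le_self s (8 * 2 ^ j)
  have d2 := Nat.lt_div_mul_add (a := s) q0
  have d3 : 100 ≤ s / (8 * 2 ^ j) := (Nat.le_div_iff_mul_le q0).2 (by rwa [mul_comm])
  generalize s / (8 * 2 ^ j) = d at d1 d2 d3
  have d4 : 2 ^ j ≤ 2 ^ j * d := Nat.le_mul_of_pos_right _ (by omega)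
  have d5 : d ≤ 2 ^ j * d := Nat.le_mul_of_pos_left _ (by positivity)
  rw [show d * (8 * 2 ^ j) = 8 * (2 ^ j * d) by ring] at d1 d2
  obtain ⟨T, t1, t2⟩ := top (2 ^ j * d) (by omega)
  obtain ⟨μ, hμ⟩ := it k d d3 (by
    rw [mul_left_comm (2 ^ j), ← mul_assoc]
    exact Nat.mul_le_mul_left _ (by omega)) T t1 t2
  have d6 : 16 * (2 ^ j * d) ≤ P * (2 ^ j * d) := Nat.mul_le_mul_right _ p1
  have d7 : s ≤ P * P ^ k * s := Nat.le_mul_of_pos_left _ (by positivity)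
  have fin : ∀ v, zd v y ≤ s → |h v - μ * ω v| ≤ η * S * W := fun v hv => by
    have a0 : 0 ≤ (1 - γ) ^ k * S := mul_nonneg (pow_nonneg (by linarith) _) hS
    have a1 := mul_le_mul_of_nonneg_left (hW v hv) a0
    have a2 := mul_le_mul_of_nonneg_left (hW T (by omega)) a0
    have a3 := mul_le_mul_of_nonneg_right θ1 (mul_nonneg a0 (hω.nn T))
    have a4 := mul_le_mul_of_nonneg_right hk.le (mul_nonneg hS ((hω.nn v).trans (hW v hv)))
    linarith [hμ v (by omega)]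
  refine ⟨max (-S) (min μ S), abs_le.2 ⟨le_max_left _ _, max_le (by linarith) (min_le_right _ _)⟩,
    fun v hv => le_trans ?_ (fin v hv)⟩
  have a := abs_le.1 (hb v (hv.trans d7))
  have b := hω.nn v
  rcases le_total μ S with c | c
  · rw [min_eq_left c]
    rcases le_total μ (-S) with e | e
    · rw [max_eq_left e, abs_of_nonneg (by linarith [a.1])]
      exact le_trans (by nlinarith) (le_abs_self _)
    · rw [max_eq_right e]
  · rw [min_eq_right c, max_eq_right (by linarith), abs_of_nonpos (by linarith [a.2])]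
    exact le_trans (by nlinarith) (neg_le_abs _)

end Vale.Agent.P144L.H
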