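import Vale.Agent.P144L.Defs

/-!
Harmonic functions on the plane lattice: the gradient estimate and the Harnack inequality.
-/

set_option linter.all false

namespace Vale.Agent.P144L.H

open Finset Vale.Agent.P144Z

/-- `h` is harmonic at `v`. -/
def Hm (h : ℤ × ℤ → ℝ) (v : ℤ × ℤ) : Prop := ∑ a, (h (v + st4 a) - h v) = 0

theorem har_iff (h : ℤ × ℤ → ℝ) (x y : ℤ) : Hm h (x, y) ↔
    h (x + 1, y) + h (x, y + 1) + h (x - 1, y) + h (x, y - 1) = 4 * h (x, y) := by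
  simp only [Hm, Fin.sum_univ_four, st4, Matrix.cons_val, Prod.mk_add_mk, add_zero,
    ← sub_eq_add_neg]
  constructor <;> intro e <;> linarith

theorem Hm.supH {h : ℤ × ℤ → ℝ} {v : ℤ × ℤ} (H : Hm h v) : SupH h v := le_of_eq H

theorem Hm.neg {h : ℤ × ℤ → ℝ} {v : ℤ × ℤ} (H : Hm h v) : Hm (fun x => -h x) v := by
  simp only [Hm, Fin.sum_univ_four] at H ⊢
  linarith

theorem Hm.shift {h : ℤ × ℤ → ℝ} {p v : ℤ × ℤ} (H : Hm h (p + v)) :
    Hm (fun x => h (p + x)) v := by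
  simpa only [Hm, add_assoc] using H

theorem zd_mk (x y : ℤ) (s : ℕ) : zd (x, y) 0 ≤ s ↔ (-(s : ℤ) ≤ x ∧ x ≤ s) ∧ -(s : ℤ) ≤ y ∧ y ≤ s :=
  B1a1.zd_zero_le

theorem zd_shift (p v : ℤ × ℤ) : zd (p + v) p = zd v 0 := by simp [zd]

theorem zd_self (p : ℤ × ℤ) : zd p p = 0 := by simp [zd]

theorem grad0 (m : ℕ) (hm : 1 ≤ m) (h : ℤ × ℤ → ℝ) (S : ℝ) (H : ∀ v, zd v 0 ≤ m → Hm h v)
    (hS : ∀ v v', zd v 0 ≤ m + 1 → zd v' 0 ≤ m + 1 → h v - h v' ≤ S) :
    (h (0, 0) - h (-1, 0)) * m ≤ S := by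
  have S0 : 0 ≤ S := by simpa using hS 0 0 (by simp [zd]) (by simp [zd])
  have m0 : (0 : ℝ) < m := by exact_mod_cast hm
  set G : ℤ → ℤ → ℝ := fun x y => (m : ℝ) ^ 2 * (h (x, y) - h (-1 - x, y)) -
    S * (m * (2 * x + 1) - x * (x + 1) + y ^ 2) with hG
  have key := maxp (Ico 0 (m : ℤ) ×ˢ Ioo (-(m : ℤ)) m)
    (fun v => if 0 ≤ v.1 then G v.1 v.2 else 0) (fun v hv a ha => by
      obtain ⟨x, y⟩ := v
      have e : (-1 ≤ ((x, y) + st4 a).1 ∧ ((x, y) + st4 a).1 ≤ m) ∧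
          -(m : ℤ) ≤ ((x, y) + st4 a).2 ∧ ((x, y) + st4 a).2 ≤ m := by
        simp only [mem_product, mem_Ico, mem_Ioo] at hv
        fin_cases a <;> simp [st4] <;> omega
      generalize (x, y) + st4 a = z at e ha
      obtain ⟨s, t⟩ := z
      simp only [mem_product, mem_Ico, mem_Ioo] at e ha ⊢
      split_ifs with h0
      · have a1 := hS (s, t) (-1 - s, t) ((zd_mk _ _ _).2 (by omega)) ((zd_mk _ _ _).2 (by omega))
        have a2 : (m : ℤ) ^ 2 ≤ m * (2 * s + 1) - s * (s + 1) + t ^ 2 := by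
          rcases (by omega : s = m ∨ t = m ∨ t = -m) with rfl | rfl | rfl
          · nlinarith [sq_nonneg t]
          · nlinarith [e.1.2]
          · nlinarith [e.1.2]
        have a3 : (m : ℝ) ^ 2 ≤ m * (2 * s + 1) - s * (s + 1) + t ^ 2 := by exact_mod_cast a2
        have a4 := mul_le_mul_of_nonneg_left a3 S0
        have a5 := mul_le_mul_of_nonneg_left a1 (sq_nonneg (m : ℝ))
        simp only [hG]
        linarith
      · exact le_rfl)
    (fun v hv h1 h2 => by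
      obtain ⟨x, y⟩ := v
      simp only [mem_product, mem_Ico, mem_Ioo] at hv
      have b0 := h2 0
      have b1 := h2 1
      have b2 := h2 2
      have b3 := h2 3
      have c1 := (har_iff h x y).1 (H _ ((zd_mk _ _ _).2 (by omega)))
      have c2 := (har_iff h (-1 - x) y).1 (H _ ((zd_mk _ _ _).2 (by omega)))
      simp only [st4, Matrix.cons_val, Prod.mk_add_mk, add_zero, ← sub_eq_add_neg, hv.1.1,
        if_true, if_pos (show 0 ≤ x + 1 by omega)] at h1 b0 b1 b2 b3 ⊢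
      have e1 : -1 - (x + 1) = -1 - x - 1 := by ring
      have e2 : -1 - (x - 1) = -1 - x + 1 := by ring
      rcases hv.1.1.eq_or_lt with rfl | h0
      · exfalso
        have d : G (0 + 1) y + G 0 (y + 1) + G 0 (y - 1) = 5 * G 0 y + 2 * S * y ^ 2 := by
          simp only [hG, e1]
          norm_num at c1 c2 ⊢
          linear_combination (m : ℝ) ^ 2 * c1 - (m : ℝ) ^ 2 * c2
        have := mul_nonneg S0 (sq_nonneg (y : ℝ))
        linarith
      · rw [if_pos (by omega)] at b2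
        have d : G (x + 1) y + G x (y + 1) + G (x - 1) y + G x (y - 1) = 4 * G x y := by
          simp only [hG, e1, e2]
          push_cast
          linear_combination (m : ℝ) ^ 2 * c1 - (m : ℝ) ^ 2 * c2
        linarith) (0, 0) (by simp; omega)
  simp only [le_refl, if_true, hG] at key
  norm_num at key
  refine le_of_mul_le_mul_left ?_ m0
  nlinarith

/-- The rotation by a quarter turn. -/
def rot (v : ℤ × ℤ) : ℤ × ℤ := (-v.2, v.1)

theorem zd_rot (v : ℤ × ℤ) : zd (rot v) 0 = zd v 0 := by simp [zd, rot, max_comm]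

theorem Hm.rot {h : ℤ × ℤ → ℝ} {v : ℤ × ℤ} (H : Hm h (rot v)) : Hm (fun x => h (rot x)) v := by
  obtain ⟨x, y⟩ := v
  rw [P144L.H.rot, har_iff] at H
  rw [har_iff]
  simp only [P144L.H.rot, neg_add, neg_sub', ← sub_eq_add_neg, sub_neg_eq_add] at H ⊢
  linarith

theorem grad1 (m : ℕ) (hm : 1 ≤ m) (S : ℝ) (k : ℕ) : ∀ h : ℤ × ℤ → ℝ, (∀ v, zd v 0 ≤ m → Hm h v) →
    (∀ v v', zd v 0 ≤ m + 1 → zd v' 0 ≤ m + 1 → h v - h v' ≤ S) →
    |h (rot^[k] (-1, 0)) - h 0| * m ≤ S := by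
  induction k with
  | zero =>
    intro h H hS
    have a := grad0 m hm h S H hS
    have b := grad0 m hm (fun x => -h x) S (fun v hv => (H v hv).neg) fun v v' a b => by
      linarith [hS v' v b a]
    rw [← abs_of_nonneg (Nat.cast_nonneg (α := ℝ) m), ← abs_mul, abs_le]
    exact ⟨by show -S ≤ (h (-1, 0) - h (0, 0)) * m; linarith,
      by show (h (-1, 0) - h (0, 0)) * m ≤ S; linarith⟩
  | succ k ih =>
    intro h H hS
    rw [Function.iterate_succ_apply']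
    exact ih (fun x => h (rot x)) (fun v hv => (H _ (by rwa [zd_rot])).rot)
      fun v v' a b => hS _ _ (by rwa [zd_rot]) (by rwa [zd_rot])

/-- The gradient estimate. -/
theorem grad {m : ℕ} (hm : 1 ≤ m) {h : ℤ × ℤ → ℝ} {p : ℤ × ℤ} {S : ℝ}
    (H : ∀ v, zd v p ≤ m → Hm h v)
    (hS : ∀ v v', zd v p ≤ m + 1 → zd v' p ≤ m + 1 → h v - h v' ≤ S) (a : Fin 4) :
    |h (p + st4 a) - h p| * m ≤ S := by
  obtain ⟨k, hk⟩ : ∃ k, st4 a = rot^[k] (-1, 0) := by
    fin_cases a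
    exacts [⟨2, rfl⟩, ⟨3, rfl⟩, ⟨0, rfl⟩, ⟨1, rfl⟩]
  have := grad1 m hm S k (fun x => h (p + x)) (fun v hv => (H _ (by rwa [zd_shift])).shift)
    fun v v' a b => hS _ _ (by rwa [zd_shift]) (by rwa [zd_shift])
  rwa [← hk, add_zero] at this

/-- The Lipschitz bound. -/
theorem lip2 {m n : ℕ} (hm : 1 ≤ m) {h : ℤ × ℤ → ℝ} {p : ℤ × ℤ} {S : ℝ}
    (H : ∀ v, zd v p ≤ n + m → Hm h v)
    (hS : ∀ v v', zd v p ≤ n + m + 1 → zd v' p ≤ n + m + 1 → h v - h v' ≤ S) {v v' : ℤ × ℤ}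
    (hv : zd v p ≤ n) (hv' : zd v' p ≤ n) : |h v - h v'| * m ≤ 2 * zd v v' * S := by
  have m0 : (0 : ℝ) < m := by exact_mod_cast hm
  have S0 : 0 ≤ S := by simpa using hS p p (by simp [zd]) (by simp [zd])
  obtain ⟨u, rfl⟩ : ∃ u, v = p + u := ⟨v - p, by abel⟩
  obtain ⟨u', rfl⟩ : ∃ u, v' = p + u := ⟨v' - p, by abel⟩
  rw [zd_shift] at hv hv'
  have k := B1b.path 0 n 0 (S / m) (fun x => h (p + x)) fun x a hx _ _ _ => by
    rw [le_div_iff₀ m0, ← add_assoc]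
    have t := fun y => GeoA.zd_tri y (p + x) p
    rw [zd_shift] at t
    exact grad hm (fun y hy => H y (by have := t y; omega)) (fun y y' hy hy' =>
      hS y y' (by have := t y; omega) (by have := t y'; omega)) a
  have z : ∀ x, (0 : ℝ) ≤ ht 0 x := fun x => by simp [ht]
  have k1 := k _ u u' hv (z _) hv' (z _) rfl
  have k2 := k _ u' u hv' (z _) hv (z _) rfl
  rw [show zd (p + u) (p + u') = zd u u' by simp [zd]]
  have e : ∀ {a : ℕ}, a ≤ 2 * zd u u' → S / m * a ≤ S / m * (2 * zd u u') := fun ha =>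
    mul_le_mul_of_nonneg_left (by exact_mod_cast ha) (by positivity)
  have k3 := k1.trans (e (by simp only [zd]; omega))
  have k4 := k2.trans (e (by simp only [zd]; omega))
  rw [← le_div_iff₀ m0, show 2 * zd u u' * S / m = S / m * (2 * zd u u') by ring, abs_le]
  constructor <;> linarith

theorem lip {m n : ℕ} (hm : 1 ≤ m) {h : ℤ × ℤ → ℝ} {p : ℤ × ℤ} {S : ℝ}
    (H : ∀ v, zd v p ≤ n + m → Hm h v)
    (hS : ∀ v v', zd v p ≤ n + m + 1 → zd v' p ≤ n + m + 1 → h v - h v' ≤ S) {v : ℤ × ℤ}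
    (hv : zd v p ≤ n) : |h v - h p| * m ≤ 2 * n * S := by
  have S0 : 0 ≤ S := by simpa using hS p p (by simp [zd]) (by simp [zd])
  have : (zd v p : ℝ) ≤ n := by exact_mod_cast hv
  exact (lip2 hm H hS hv (by simp [zd])).trans (by gcongr)

theorem grdL : GrdL := ⟨4, by norm_num, fun f x ρ S hρ H hS v v' hv hv' =>
  (lip2 (S := 2 * S) hρ (fun u hu => H u (by omega)) (fun u u' hu hu' => by
    linarith [(abs_le.1 (hS u (by omega))).2, (abs_le.1 (hS u' (by omega))).1]) hv hv').trans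
    (le_of_eq (by ring))⟩

/-- A nonnegative superharmonic function loses at most the factor four in one step. -/
theorem nbr {w : ℤ × ℤ → ℝ} {v : ℤ × ℤ} (H : SupH w v) (h0 : ∀ a, 0 ≤ w (v + st4 a)) (a : Fin 4) :
    w (v + st4 a) ≤ 4 * w v := by
  have := single_le_sum (f := fun a => w (v + st4 a)) (fun a _ => h0 a) (mem_univ a)
  simp only [SupH, Fin.sum_univ_four] at H this
  linarith

theorem nbr1 {w : ℤ × ℤ → ℝ} {p : ℤ × ℤ} (H : ∀ v, zd v p ≤ 2 → 0 ≤ w v)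
    (H' : ∀ v, zd v p ≤ 1 → SupH w v) {v : ℤ × ℤ} (hv : zd v p ≤ 1) : w p ≤ 16 * w v := by
  have k : ∀ u, zd u p ≤ 1 → ∀ a, w (u + st4 a) ≤ 4 * w u := fun u hu => nbr (H' u hu) fun a => by
    refine H _ ?_
    have := GeoA.zd_tri (u + st4 a) u p
    rw [zd_shift, B1a1.zd_st4] at this
    omega
  have k' : ∀ u, zd u p ≤ 1 → ∀ x, (x.1 - u.1).natAbs + (x.2 - u.2).natAbs ≤ 1 → w x ≤ 4 * w u := by
    intro u hu x hx
    have := H u (by omega)
    rcases (by omega : x.1 = u.1 ∧ x.2 = u.2 ∨ x.1 = u.1 + 1 ∧ x.2 = u.2 + 0 ∨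
      x.1 = u.1 + 0 ∧ x.2 = u.2 + 1 ∨ x.1 = u.1 + -1 ∧ x.2 = u.2 + 0 ∨
      x.1 = u.1 + 0 ∧ x.2 = u.2 + -1) with e | e | e | e | e
    · rw [show x = u from Prod.ext e.1 e.2]
      linarith
    · rw [show x = u + st4 0 from Prod.ext e.1 e.2]
      exact k u hu 0
    · rw [show x = u + st4 1 from Prod.ext e.1 e.2]
      exact k u hu 1
    · rw [show x = u + st4 2 from Prod.ext e.1 e.2]
      exact k u hu 2
    · rw [show x = u + st4 3 from Prod.ext e.1 e.2]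
      exact k u hu 3
  have z : (v.1 - p.1).natAbs ≤ 1 ∧ (v.2 - p.2).natAbs ≤ 1 := by simpa [zd] using hv
  have a := k' v hv (p.1, v.2) (by simp only; omega)
  have b := k' (p.1, v.2) (by simp [zd, z.2]) p (by simp only; omega)
  linarith

/-- The weak Harnack inequality with a power. -/
theorem weak : ∃ N : ℕ, 1 ≤ N ∧ ∀ (w : ℤ × ℤ → ℝ) (p : ℤ × ℤ) (k R : ℕ) (A : ℝ), 1 ≤ k →
    k ≤ 2 * R → 0 ≤ A → (∀ v, zd v p ≤ 3 * R → 0 ≤ w v ∧ SupH w v) →
    (∀ v, zd v p ≤ k → A ≤ w v) → ∀ v, zd v p ≤ R → (k : ℝ) ^ N * A ≤ (2 * R) ^ N * w v := by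
  obtain ⟨N, hN⟩ := pow_unbounded_of_one_lt ((Real.exp (-2) ^ 2 / 6) ^ 2)⁻¹ (one_lt_two (α := ℝ))
  refine ⟨N + 1, by omega, fun w p k R A hk hR hA H h1 v hv => ?_⟩
  have c0 : 0 < (Real.exp (-2) ^ 2 / 6) ^ 2 := by positivity
  have dbl : ∀ j, 2 ^ j * k ≤ 2 * R → ∀ v, zd v p ≤ 2 ^ j * k →
      A / ((2 : ℝ) ^ j) ^ (N + 1) ≤ w v := by
    intro j
    induction j with
    | zero => simpa using fun _ => h1
    | succ j ih =>
      intro hj v hv
      rw [pow_succ, mul_right_comm] at hj hv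
      refine le_trans ?_ (IN1.harn 2 (2 ^ j * k) w p _ (Nat.mul_pos (by positivity) hk)
        (by positivity) (fun v hv => (H v (by omega)).1) (fun v hv => (H v (by omega)).2)
        (ih (by omega)) v (by omega))
      generalize (Real.exp (-2) ^ 2 / 6) ^ 2 = c at c0 hN
      rw [inv_lt_iff_one_lt_mul₀ c0] at hN
      rw [pow_succ (2 : ℝ) j, mul_pow, ← div_div, div_le_iff₀ (by positivity), pow_succ 2 N]
      have : 0 ≤ A / ((2 : ℝ) ^ j) ^ (N + 1) := by positivity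
      nlinarith
  have ex : ∃ j, R ≤ 2 ^ j * k := ⟨R, (Nat.lt_two_pow_self.le).trans (Nat.le_mul_of_pos_right _ hk)⟩
  have j1 := Nat.find_spec ex
  have j2 : 2 ^ Nat.find ex * k ≤ 2 * R := by
    rcases Nat.eq_zero_or_eq_succ_pred (Nat.find ex) with e | e
    · rw [e]
      omega
    · have := Nat.find_min ex (m := (Nat.find ex).pred) (by omega)
      rw [e, Nat.succ_eq_add_one, pow_succ, mul_right_comm]
      omega
  generalize Nat.find ex = j at j1 j2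
  have a := dbl j j2 v (by omega)
  rw [div_le_iff₀ (by positivity)] at a
  have b : (2 : ℝ) ^ j * k ≤ 2 * R := by exact_mod_cast j2
  have c := (H v (by omega)).1
  calc _ ≤ (k : ℝ) ^ (N + 1) * (w v * ((2 : ℝ) ^ j) ^ (N + 1)) := by gcongr
    _ = ((2 : ℝ) ^ j * k) ^ (N + 1) * w v := by ring
    _ ≤ _ := by gcongr

theorem harn0 : ∃ C : ℝ, 1 ≤ C ∧ ∀ (m : ℕ) (h : ℤ × ℤ → ℝ) (p : ℤ × ℤ), 1 ≤ m →
    (∀ v, zd v p ≤ 8 * m → 0 ≤ h v ∧ Hm h v) → ∀ v, zd v p ≤ m → h v ≤ C * h p := by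
  obtain ⟨N, hN, W⟩ := weak
  obtain ⟨Q, hQ⟩ : ∃ Q, Q = 2 ^ (N + 5) := ⟨_, rfl⟩
  have Q1 : 32 ≤ Q := by
    rw [hQ, pow_add]
    exact Nat.le_mul_of_pos_left _ (by positivity)
  have Q0 : (32 : ℝ) ≤ Q := by exact_mod_cast Q1
  refine ⟨16 * (8 * Q) ^ N, by nlinarith [one_le_pow₀ (n := N) (show (1 : ℝ) ≤ 8 * Q by linarith)],
    fun m h p hm H v hv => ?_⟩
  obtain ⟨x, hx, hmax⟩ := (Icc (-(2 * m : ℕ) : ℤ) (2 * m : ℕ) ×ˢ Icc (-(2 * m : ℕ) : ℤ)
    (2 * m : ℕ)).exists_max_image (fun u => h (p + u) * ((2 * m - zd u 0 : ℕ) : ℝ) ^ N)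
    ⟨0, B1a1.mem_box.2 (by simp [zd])⟩
  replace hx := B1a1.mem_box.1 hx
  obtain ⟨ρ, hρ⟩ : ∃ ρ, ρ = 2 * m - zd x 0 := ⟨_, rfl⟩
  have t : ∀ y, zd y p ≤ zd y (p + x) + zd x 0 := fun y => by
    have := GeoA.zd_tri y (p + x) p
    rwa [zd_shift] at this
  replace hmax : ∀ y, zd y p ≤ 2 * m → h y * ((2 * m - zd y p : ℕ) : ℝ) ^ N ≤ h (p + x) * ρ ^ N :=
    fun y hy => by
      obtain ⟨u, rfl⟩ : ∃ u, y = p + u := ⟨y - p, by abel⟩
      rw [zd_shift] at hy ⊢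
      rw [hρ]
      exact hmax u (B1a1.mem_box.2 hy)
  have x0 := (H (p + x) (by rw [zd_shift]; omega)).1
  obtain ⟨k, k1, k2, k3, k4⟩ : ∃ k, 1 ≤ k ∧ k ≤ 2 * m ∧ ρ ≤ 2 * Q * k ∧
      ∀ y, zd y (p + x) ≤ k → h (p + x) / 16 ≤ h y := by
    by_cases hq : ρ < Q
    · refine ⟨1, le_rfl, by omega, by omega, fun y hy => ?_⟩
      rw [div_le_iff₀' (by norm_num)]
      exact nbr1 (fun u hu => (H u (by have := t u; omega)).1)
        (fun u hu => (H u (by have := t u; omega)).2.supH) hy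
    have d1 := Nat.div_mul_le_self ρ Q
    have d2 := Nat.lt_div_mul_add (a := ρ) (show 0 < Q by omega)
    have d3 : 1 ≤ ρ / Q := (Nat.le_div_iff_mul_le (by omega)).2 (by omega)
    generalize ρ / Q = k at d1 d2 d3
    have d4 : k * 32 ≤ k * Q := Nat.mul_le_mul_left _ Q1
    have d5 : Q ≤ k * Q := Nat.le_mul_of_pos_left _ d3
    refine ⟨k, d3, by omega, by nlinarith, fun y hy => ?_⟩
    have ub : ∀ u, zd u (p + x) ≤ k + ρ / 4 + 1 → h u ≤ 2 ^ N * h (p + x) := fun u hu => by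
      have a1 := t u
      have a2 := hmax u (by omega)
      have a3 : (ρ : ℝ) ≤ 2 * ((2 * m - zd u p : ℕ) : ℝ) := by exact_mod_cast (by omega)
      have a4 : (0 : ℝ) < ((2 * m - zd u p : ℕ) : ℝ) := by exact_mod_cast (by omega)
      generalize ((2 * m - zd u p : ℕ) : ℝ) = τ at a2 a3 a4
      refine le_of_mul_le_mul_right (a2.trans ?_) (pow_pos a4 N)
      calc _ ≤ h (p + x) * (2 * τ) ^ N := by gcongr
        _ = _ := by ring
    have a := lip (m := ρ / 4) (S := 2 ^ N * h (p + x)) (by omega) (fun u hu => (H u (by have := t u; omega)).2)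
      (fun u u' hu hu' => by linarith [ub u hu, (H u' (by have := t u'; omega)).1]) hy
    have b : (k : ℝ) * (2 ^ N * 32) ≤ 8 * (ρ / 4 : ℕ) := by
      have : k * Q ≤ 8 * (ρ / 4) := by omega
      rw [hQ, pow_add] at this
      exact_mod_cast this
    have c : (0 : ℝ) < (ρ / 4 : ℕ) := by exact_mod_cast (by omega)
    have d : |h y - h (p + x)| ≤ h (p + x) / 2 :=
      le_of_mul_le_mul_right (a.trans (by nlinarith)) c
    linarith [(abs_le.1 d).1]
  have a := W h (p + x) k (2 * m) _ k1 (by omega) (by positivity)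
    (fun u hu => ⟨(H u (by have := t u; omega)).1, (H u (by have := t u; omega)).2.supH⟩) k4 p
    (by rwa [GeoA.zd_comm, zd_shift])
  have b := hmax v (by omega)
  have m0 : (0 : ℝ) < m := by exact_mod_cast hm
  have c : (m : ℝ) ≤ ((2 * m - zd v p : ℕ) : ℝ) := by exact_mod_cast (by omega)
  have d : (ρ : ℝ) ≤ 2 * Q * k := by exact_mod_cast k3
  have v0 := (H v (by omega)).1
  refine le_of_mul_le_mul_right ?_ (pow_pos m0 N)
  push_cast at a
  calc _ ≤ h v * ((2 * m - zd v p : ℕ) : ℝ) ^ N := by gcongr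
    _ ≤ h (p + x) * (2 * Q * k) ^ N := b.trans (by gcongr)
    _ = 16 * (2 * Q) ^ N * (k ^ N * (h (p + x) / 16)) := by ring
    _ ≤ 16 * (2 * Q) ^ N * ((2 * (2 * m)) ^ N * h p) := by gcongr
    _ = _ := by
      rw [show (8 : ℝ) * Q = 2 * Q * 4 by ring, show (2 : ℝ) * (2 * m) = 4 * m by ring, mul_pow,
        mul_pow, mul_pow _ (4 : ℝ)]
      ring

/-- The Harnack inequality in differential form. -/
theorem dharn : ∃ C : ℝ, 1 ≤ C ∧ ∀ (m : ℕ) (h : ℤ × ℤ → ℝ) (p : ℤ × ℤ), 1 ≤ m →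
    (∀ v, zd v p ≤ m → 0 ≤ h v ∧ Hm h v) → ∀ a, |h (p + st4 a) - h p| * m ≤ C * h p := by
  obtain ⟨C, hC, H⟩ := harn0
  refine ⟨48 + 24 * C, by linarith, fun m h p hm hh a => ?_⟩
  have p0 := (hh p (by simp [zd])).1
  have z : ∀ a, zd (p + st4 a) p = 1 := fun a => by rw [zd_shift, B1a1.zd_st4]
  by_cases h16 : m < 16
  · have a1 := nbr (hh p (by simp [zd])).2.supH (fun a => (hh _ (by rw [z]; omega)).1) a
    have a2 := (hh (p + st4 a) (by rw [z]; omega)).1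
    have a3 : |h (p + st4 a) - h p| ≤ 3 * h p := abs_le.2 ⟨by linarith, by linarith⟩
    have a4 : (m : ℝ) ≤ 16 := by exact_mod_cast h16.le
    have a5 := mul_le_mul a3 a4 (Nat.cast_nonneg _) (by positivity)
    nlinarith
  · obtain ⟨n, hn⟩ : ∃ n, m / 8 = n + 1 := ⟨m / 8 - 1, by omega⟩
    have a1 := grad (m := n) (by omega) (fun v hv => (hh v (by omega)).2) (fun v v' hv hv' => by
      linarith [H (n + 1) h p (by omega) (fun u hu => hh u (by omega)) v hv,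
        (hh v' (by omega)).1] : ∀ v v', zd v p ≤ n + 1 → zd v' p ≤ n + 1 → h v - h v' ≤ C * h p) a
    have a2 : (m : ℝ) ≤ 24 * n := by exact_mod_cast (by omega)
    have a3 := mul_le_mul_of_nonneg_left a2 (abs_nonneg (h (p + st4 a) - h p))
    nlinarith

end Vale.Agent.P144L.H
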