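import Vale.Agent.P144L.D.Deep
import Vale.Agent.P144L.G.Bas
import Vale.Agent.P144D.Geo.B

/-!
A boundary of slope less than one is rough in the sense of `Rgh`.
-/

namespace Vale.Agent.P144L.H

open Finset Vale.Agent.P144Z GeoA B5a2 D

/-- An axis lies strictly inside the cone. -/
theorem axis {κ : ℝ} (hκ : κ < √2 / 2) : ∃ n : ℕ, ∀ ν : ℂ, ‖ν‖ = 1 → ∃ e : ℤ × ℤ,
    (e = (1, 0) ∨ e = (-1, 0) ∨ e = (0, 1) ∨ e = (0, -1)) ∧
      ∀ (t : ℤ) (d : ℤ × ℤ), n ≤ t → zd d 0 ≤ 4 → κ * len (t • e + d) ≤ ht ν (t • e + d) := by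
  obtain ⟨n, hn⟩ := exists_nat_ge (12 / (√2 / 2 - max κ 0))
  have g1 := G.s2_ge
  have g2 := G.s2_le
  have hδ : 0 < √2 / 2 - max κ 0 := sub_pos.2 (max_lt hκ (by linarith))
  rw [div_le_iff₀ hδ] at hn
  refine ⟨n, fun ν hν => ?_⟩
  have hs := sq_add hν
  have h2 : (√2 / 2) ^ 2 = 1 / 2 := by rw [div_pow, Real.sq_sqrt (by norm_num)]; norm_num
  obtain ⟨e, he, h1⟩ : ∃ e : ℤ × ℤ, (e = (1, 0) ∨ e = (-1, 0) ∨ e = (0, 1) ∨ e = (0, -1)) ∧
      √2 / 2 ≤ ht ν e := by
    by_contra k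
    simp only [not_exists, not_and, not_le] at k
    have a1 := k _ (Or.inl rfl)
    have a2 := k _ (Or.inr (Or.inl rfl))
    have a3 := k _ (Or.inr (Or.inr (Or.inl rfl)))
    have a4 := k _ (Or.inr (Or.inr (Or.inr rfl)))
    simp only [ht] at a1 a2 a3 a4
    push_cast at a1 a2 a3 a4
    have b1 : ν.re ^ 2 < (√2 / 2) ^ 2 := sq_lt_sq' (by linarith) (by linarith)
    have b2 : ν.im ^ 2 < (√2 / 2) ^ 2 := sq_lt_sq' (by linarith) (by linarith)
    linarith
  refine ⟨e, he, fun t d ht' hd => ?_⟩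
  have t0 : (n : ℝ) ≤ t := by exact_mod_cast ht'
  have n0 : (0 : ℝ) ≤ n := Nat.cast_nonneg n
  have l1 : len (t • e) = t := by
    have : (0 : ℝ) ≤ t := n0.trans t0
    rcases he with rfl | rfl | rfl | rfl <;> simp [len, Real.sqrt_sq this]
  have l2 : ht ν (t • e) = t * ht ν e := by
    simp only [ht, Prod.smul_fst, Prod.smul_snd, smul_eq_mul, Int.cast_mul]
    ring
  have l3 := G.len_add (t • e) d
  have l4 := G.len_zd d
  have l5 : (zd d 0 : ℝ) ≤ 4 := by exact_mod_cast hd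
  have l6 := (abs_le.1 (G.abs_ht hν d)).1
  have l7 := len_nonneg (t • e + d)
  have m0 : (0 : ℝ) ≤ max κ 0 := le_max_right _ _
  have m1 : κ * len (t • e + d) ≤ max κ 0 * (t + 6) :=
    (mul_le_mul_of_nonneg_right (le_max_left _ _) l7).trans
      (mul_le_mul_of_nonneg_left (by linarith) m0)
  have m2 := mul_le_mul_of_nonneg_left h1 (n0.trans t0)
  have m3 := mul_le_mul_of_nonneg_right t0 hδ.le
  rw [B1b.ht_add, l2]
  nlinarith

theorem card_le_of {β : Type} (F : Finset β) (g : β → ℤ) (n : ℕ) (hg : Set.InjOn g F)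
    (h : ∀ x ∈ F, ∀ y ∈ F, g y ≤ g x + n) : F.card ≤ n + 1 := by
  rcases F.eq_empty_or_nonempty with rfl | hne
  · simp
  · obtain ⟨x, hx, hmin⟩ := F.exists_min_image g hne
    have := card_le_card_of_injOn (t := Icc (g x) (g x + n)) g
      (fun y hy => by simpa using ⟨hmin y hy, h x hx y hy⟩) hg
    rw [Int.card_Icc] at this
    omega

/-- The boundary layer is short in the rows or in the columns. -/
theorem row_col {S : Set (ℤ × ℤ)} {e : ℤ × ℤ} {n : ℕ}
    (he : e = (1, 0) ∨ e = (-1, 0) ∨ e = (0, 1) ∨ e = (0, -1))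
    (h : ∀ u ∈ S, ∀ (t : ℤ) (d : ℤ × ℤ), n ≤ t → zd d 0 ≤ 4 → u + (t • e + d) ∈ S) :
    (∀ v v', Lay S v → Lay S v' → v.2 = v'.2 → v'.1 ≤ v.1 + n) ∨
      ∀ v v', Lay S v → Lay S v' → v.1 = v'.1 → v'.2 ≤ v.2 + n := by
  have key : ∀ v v', Lay S v → Lay S v' → ∀ t : ℤ, v' = v + t • e → t < n :=
    fun v v' ⟨⟨f, hf, h1⟩, _⟩ ⟨_, f', hf', h2⟩ t k => by
      by_contra k'
      refine hf' ?_
      have := h f hf t (f' - v' - (f - v)) (by omega) (by
        simp only [zd, Prod.fst_sub, Prod.snd_sub, Prod.fst_zero, Prod.snd_zero] at h1 h2 ⊢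
        omega)
      rwa [show f + (t • e + (f' - v' - (f - v))) = f' by rw [k]; abel] at this
  rcases he with rfl | rfl | rfl | rfl
  · refine Or.inl fun v v' a b c => ?_
    have := key v v' a b (v'.1 - v.1) (Prod.ext (by simp) (by simp [c]))
    omega
  · refine Or.inl fun v v' a b c => ?_
    have := key v' v b a (v'.1 - v.1) (Prod.ext (by simp) (by simp [c]))
    omega
  · refine Or.inr fun v v' a b c => ?_
    have := key v v' a b (v'.2 - v.2) (Prod.ext (by simp [c]) (by simp))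
    omega
  · refine Or.inr fun v v' a b c => ?_
    have := key v' v b a (v'.2 - v.2) (Prod.ext (by simp [c]) (by simp))
    omega

theorem rghL : RghL := by
  intro κ hκ
  obtain ⟨n, hn⟩ := axis hκ
  refine ⟨n + 11, 3, by norm_num, fun M _ I r h _ hr => ⟨fun y s hs => ?_, fun f hf s hs => ?_,
    fun z => ?_⟩⟩
  · intro f f' hf hf' hI hI'
    obtain ⟨S, ν, n1, n2, hS⟩ := h y
    obtain ⟨e, e', he, hc⟩ := oct n1
    have n3 := epi_mono n2 hκ.le
    obtain ⟨ρ, hρ⟩ : ∃ ρ, ρ = (n + 11) * (s + 1) := ⟨_, rfl⟩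
    rw [← hρ] at hs ⊢
    have a1 : 11 * (s + 1) ≤ ρ := hρ ▸ Nat.mul_le_mul_right _ (by omega)
    rw [← zd_lft] at hf hf'
    have p4 : Rch (fun x => zd x 0 ≤ ρ ∧ y + prj M x ∉ I) (lft (f - y)) (lft (f' - y)) := by
      refine rch_oc (s := 2 * s) he.neg (fun u w hu hw k1 k2 => ?_)
        ⟨by omega, by rwa [G.add_prj_lft]⟩ ⟨by omega, by rwa [G.add_prj_lft]⟩ ?_
      · have b1 := zd_tri w (lft (f - y)) 0
        refine ⟨by omega, fun k3 => k1.2 ((hS u (by omega)).2 ?_)⟩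
        simpa using n3 _ ((hS w (by omega)).1 k3) _ (hc _ (oc_neg k2))
      · have b1 := zd_tri (lft (f' - y)) 0 (lft (f - y))
        rw [zd_comm 0] at b1
        omega
    rw [← G.add_prj_lft f y, ← G.add_prj_lft f' y]
    refine Relation.ReflTransGen.lift (fun x => y + prj M x) ?_ _ _ p4
    rintro u w ⟨q1, q2, q3⟩
    refine ⟨(tdist_le_zd y u).trans q1.1, (tdist_le_zd y w).trans q2.1, q1.2, q2.2, ?_⟩
    beta_reduce
    rcases q3 with rfl | rfl | rfl | rfl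
    · exact ⟨0, Or.inl (by rw [G.prj_add, G.uv_zero, add_assoc])⟩
    · exact ⟨1, Or.inl (by rw [G.prj_add, G.uv_one, add_assoc])⟩
    · exact ⟨0, Or.inr (by simp [uv, prj, add_assoc])⟩
    · exact ⟨1, Or.inr (by simp [uv, prj, add_assoc])⟩
  · obtain ⟨S, ν, n1, n2, hS⟩ := h f
    obtain ⟨e, e', he, hc⟩ := oct n1
    have n3 := epi_mono n2 hκ.le
    have a1 : 11 * (s + 1) ≤ (n + 11) * (s + 1) := Nat.mul_le_mul_right _ (by omega)
    obtain ⟨c, c1, c2⟩ : ∃ c : ℤ × ℤ, zd c 0 ≤ 4 * s ∧ ∀ v, zd v c ≤ s → Oc e e' (-v) := by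
      refine ⟨-(((4 * s : ℕ) : ℤ) • e + ((2 * s : ℕ) : ℤ) • e'), ?_, fun v hv => ?_⟩
      · rcases he with ⟨rfl | rfl, rfl | rfl⟩ | ⟨rfl | rfl, rfl | rfl⟩ <;> simp [zd] <;> omega
      · rcases he with ⟨rfl | rfl, rfl | rfl⟩ | ⟨rfl | rfl, rfl | rfl⟩ <;>
          simp [zd, Oc] at hv ⊢ <;> omega
    refine ⟨f + prj M c, (tdist_le_zd f c).trans (by omega), fun g hg k => hf ?_⟩
    obtain ⟨x, x1, -, x2⟩ := G.near_in hS (d := s) (by omega) hg
    have := (hS 0 (by simp [zd])).2 (by simpa using n3 _ (x2.1 k) _ (hc _ (c2 x x1)))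
    rwa [G.prj_zero, add_zero] at this
  · classical
    obtain ⟨S, ν, n1, n2, hS⟩ := h z
    obtain ⟨e, he, hc⟩ := hn ν n1
    have inj : ∀ a b c : ZMod M, (a - c).valMinAbs = (b - c).valMinAbs → a = b := fun a b c e =>
      sub_left_injective (ZMod.valMinAbs_inj.1 e)
    have lay : ∀ x, tdist x z ≤ r / 3 → NearB I 2 x → Lay S (lft (x - z)) :=
      fun x hx ⟨⟨f, hf, hfx⟩, f', hf', hfx'⟩ => by
        obtain ⟨w, rfl, w1, w2⟩ := exists_rep z x f
        obtain ⟨w', rfl, w1', w2'⟩ := exists_rep z x f'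
        exact ⟨⟨w, (hS w (by omega)).1 hf, w1 ▸ hfx⟩, w', mt (hS w' (by omega)).2 hf', w1' ▸ hfx'⟩
    rcases row_col he fun u hu t d k1 k2 => n2 u hu _ (hc t d k1 k2) with h | h
    · refine ⟨univ.filter fun x => Lay S (lft (x - z)), ∅,
        fun x hx k => Or.inl (by simpa using lay x hx k),
        fun t => (card_le_of _ (fun x => (lft (x - z)).1) n (fun x hx y hy e => ?_)
          fun x hx y hy => ?_).trans (by omega), by simp⟩
      · simp only [coe_filter, Set.mem_ofPred_eq] at hx hy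
        exact Prod.ext (inj _ _ _ e) (hx.2.trans hy.2.symm)
      · simp only [mem_filter, mem_univ, true_and] at hx hy
        exact h _ _ hx.1 hy.1 (by simp only [lft, Prod.snd_sub, hx.2, hy.2])
    · refine ⟨∅, univ.filter fun x => Lay S (lft (x - z)),
        fun x hx k => Or.inr (by simpa using lay x hx k), by simp,
        fun t => (card_le_of _ (fun x => (lft (x - z)).2) n (fun x hx y hy e => ?_)
          fun x hx y hy => ?_).trans (by omega)⟩
      · simp only [coe_filter, Set.mem_ofPred_eq] at hx hy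
        exact Prod.ext (hx.2.trans hy.2.symm) (inj _ _ _ e)
      · simp only [mem_filter, mem_univ, true_and] at hx hy
        exact h _ _ hx.1 hy.1 (by simp only [lft, Prod.fst_sub, hx.2, hy.2])

end Vale.Agent.P144L.H
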